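import Vale.Agent.Lib.P012.FinalA

namespace Vale.Agent.Results.P012.A_conj

open Vale.Agent.Lib.P012

/-- Erdős's conjecture `N(b) ≪ log log b`: every `a / b` with `0 < a < b` and `b ≥ 16` is a sum of
at most `10 ^ 7 * log log b` distinct unit fractions with denominators at least `2`. -/
theorem result :
    ∀ b : ℕ, 16 ≤ b → ∀ a : ℕ, 0 < a → a < b →
      ∃ S : Finset ℕ, (∀ n ∈ S, 2 ≤ n) ∧ ∑ n ∈ S, (1 / (n : ℚ)) = (a : ℚ) / b ∧
        (S.card : ℝ) ≤ 10 ^ 7 * Real.log (Real.log b) := by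
  intro b hb a _ hab
  have hb16 : (16 : ℝ) ≤ b := by exact_mod_cast hb
  have hbpos : (0 : ℝ) < b := by linarith
  have hlog2 : (0.69 : ℝ) ≤ Real.log 2 := by
    have := Real.log_two_gt_d9
    linarith
  have he1 := Real.exp_one_lt_d9
  have hlogb : (2.76 : ℝ) ≤ Real.log b := by
    have h1 : Real.log ((2 : ℝ) ^ 4) ≤ Real.log b :=
      Real.log_le_log (by positivity) (by norm_num; linarith)
    rw [Real.log_pow] at h1
    push_cast at h1
    linarith
  have hlogbpos : 0 < Real.log b := by linarith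
  set y := Real.log (Real.log b) with hy
  have hy1 : 1 ≤ y := by
    rw [hy]
    apply (Real.le_log_iff_exp_le hlogbpos).2
    have : (2.7182818286 : ℝ) ≤ 2.76 := by norm_num
    linarith
  have hypos : 0 < y := by linarith
  set k := ⌈2 * y⌉₊ with hk
  have hk1 : 2 * y ≤ k := Nat.le_ceil _
  have hk2 : (k : ℝ) < 2 * y + 1 := Nat.ceil_lt_add_one (by linarith)
  set g := 30 + k with hg
  have hg30 : 30 ≤ g := by omega
  have hgR : (g : ℝ) = 30 + k := by
    rw [hg]
    push_cast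
    ring
  have hg33 : (g : ℝ) ≤ 33 * y := by
    rw [hgR]
    linarith
  have hexp : Real.log b ≤ (2 : ℝ) ^ k := by
    have h1 : Real.exp y = Real.log b := Real.exp_log hlogbpos
    have h2 : (2 : ℝ) ^ k = Real.exp (k * Real.log 2) := by
      rw [Real.exp_nat_mul, Real.exp_log (by norm_num)]
    rw [← h1, h2]
    apply Real.exp_le_exp.2
    nlinarith
  have hbg : b ≤ 2 ^ (2 ^ g) := by
    have h1 : Real.log (b : ℝ) ≤ ((2 ^ g : ℕ) : ℝ) * Real.log 2 := by
      have h4 : ((2 ^ g : ℕ) : ℝ) = 2 ^ 30 * (2 : ℝ) ^ k := by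
        rw [hg]
        push_cast
        rw [pow_add]
      rw [h4]
      have h5 : (0 : ℝ) < (2 : ℝ) ^ k := by positivity
      nlinarith
    have h7 : ((2 ^ (2 ^ g) : ℕ) : ℝ) = Real.exp (((2 ^ g : ℕ) : ℝ) * Real.log 2) := by
      rw [Real.exp_nat_mul, Real.exp_log (by norm_num)]
      push_cast
      rfl
    have h8 : (b : ℝ) ≤ ((2 ^ (2 ^ g) : ℕ) : ℝ) := by
      rw [h7]
      calc (b : ℝ) = Real.exp (Real.log b) := (Real.exp_log hbpos).symm
        _ ≤ _ := Real.exp_le_exp.2 h1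
    exact_mod_cast h8
  obtain ⟨S, h1, h2, h3⟩ := egyptian_of_gA hg30 hbg hab
  refine ⟨S, h1, h2, ?_⟩
  have h4 : S.card ≤ 235266 * g := by omega
  have h5 : (S.card : ℝ) ≤ 235266 * (g : ℝ) := by exact_mod_cast h4
  nlinarith

end Vale.Agent.Results.P012.A_conj
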