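import Vale.Agent.Lib.P012.Final2

namespace Vale.Agent.Results.P012.A_loglog

open Vale.Agent.Lib.P012

/-- Every `a / b` with `0 < a < b` and `b ≥ 2 ^ 32` is a sum of at most
`50000 * log log b * log log log b` distinct unit fractions with denominators at least `2`;
that is, `N(b) ≪ log log b * log log log b`. -/
theorem result :
    ∀ b : ℕ, 2 ^ 32 ≤ b → ∀ a : ℕ, 0 < a → a < b →
      ∃ S : Finset ℕ, (∀ n ∈ S, 2 ≤ n) ∧ ∑ n ∈ S, (1 / (n : ℚ)) = (a : ℚ) / b ∧
        (S.card : ℝ) ≤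
          50000 * Real.log (Real.log b) * Real.log (Real.log (Real.log b)) := by
  intro b hb a _ hab
  have hb32 : ((2 : ℝ) ^ 32) ≤ b := by exact_mod_cast hb
  have hbpos : (0 : ℝ) < b := lt_of_lt_of_le (by positivity) hb32
  have hlog2 : (1 / 2 : ℝ) ≤ Real.log 2 := by
    have := Real.log_two_gt_d9
    linarith
  have hlog2' : (0.69 : ℝ) ≤ Real.log 2 := by
    have := Real.log_two_gt_d9
    linarith
  have he1 := Real.exp_one_lt_d9
  have he3 : Real.exp 3 ≤ 22 := by
    have h : Real.exp 3 = Real.exp 1 ^ 3 := by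
      rw [← Real.exp_nat_mul]
      norm_num
    rw [h]
    have h0 := Real.exp_pos 1
    calc Real.exp 1 ^ 3 ≤ (2.7182818286 : ℝ) ^ 3 := pow_le_pow_left₀ h0.le he1.le 3
      _ ≤ 22 := by norm_num
  have hlogb : (22 : ℝ) ≤ Real.log b := by
    have h1 : Real.log ((2 : ℝ) ^ 32) ≤ Real.log b :=
      Real.log_le_log (by positivity) hb32
    rw [Real.log_pow] at h1
    push_cast at h1
    linarith
  have hlogbpos : 0 < Real.log b := by linarith
  set y := Real.log (Real.log b) with hy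
  have hy3 : 3 ≤ y := by
    rw [hy]
    exact (Real.le_log_iff_exp_le hlogbpos).2 (he3.trans hlogb)
  have hypos : 0 < y := by linarith
  set z := Real.log y with hz
  have he1' : Real.exp 1 ≤ 3 := by
    have : (2.7182818286 : ℝ) ≤ 3 := by norm_num
    linarith
  have hz1 : 1 ≤ z := by
    rw [hz]
    exact (Real.le_log_iff_exp_le hypos).2 (he1'.trans hy3)
  set k := ⌈2 * y⌉₊ with hk
  have hk1 : 2 * y ≤ k := Nat.le_ceil _
  have hk2 : (k : ℝ) < 2 * y + 1 := Nat.ceil_lt_add_one (by linarith)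
  set g := 19 + k with hg
  have hg19 : 19 ≤ g := by omega
  have hgR : (g : ℝ) = 19 + k := by
    rw [hg]
    push_cast
    ring
  have hg9 : (g : ℝ) ≤ 9 * y := by
    rw [hgR]
    linarith
  have hgpos : (0 : ℝ) < g := by
    rw [hgR]
    positivity
  have hexp : Real.log b ≤ (2 : ℝ) ^ k := by
    have h1 : Real.exp y = Real.log b := Real.exp_log hlogbpos
    have h2 : (2 : ℝ) ^ k = Real.exp (k * Real.log 2) := by
      rw [Real.exp_nat_mul, Real.exp_log (by norm_num)]
    rw [← h1, h2]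
    apply Real.exp_le_exp.2
    nlinarith
  have hbg : b ≤ 2 ^ (2 ^ g) := by
    have h1 : Real.log (b : ℝ) ≤ ((2 ^ g : ℕ) : ℝ) * Real.log 2 := by
      have h4 : ((2 ^ g : ℕ) : ℝ) = 2 ^ 19 * (2 : ℝ) ^ k := by
        rw [hg]
        push_cast
        rw [pow_add]
      rw [h4]
      have h5 : (0 : ℝ) < (2 : ℝ) ^ k := by positivity
      nlinarith
    have h7 : ((2 ^ (2 ^ g) : ℕ) : ℝ) = Real.exp (((2 ^ g : ℕ) : ℝ) * Real.log 2) := by
      rw [Real.exp_nat_mul, Real.exp_log (by norm_num)]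
      push_cast
      rfl
    have h8 : (b : ℝ) ≤ ((2 ^ (2 ^ g) : ℕ) : ℝ) := by
      rw [h7]
      calc (b : ℝ) = Real.exp (Real.log b) := (Real.exp_log hbpos).symm
        _ ≤ _ := Real.exp_le_exp.2 h1
    exact_mod_cast h8
  obtain ⟨S, h1, h2, h3⟩ := egyptian_of_g hg19 hbg hab
  refine ⟨S, h1, h2, ?_⟩
  have hlev := levelsBelow_le g
  have h3R : (S.card : ℝ) ≤ 2 * (g : ℝ) + 1 + 2 * (64 * (g : ℝ) + 3 +
      5 * (levelsBelow g (g - 5) : ℝ) + 5 * (384 * (g : ℝ) + 192)) := by
    exact_mod_cast h3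
  have hlogg : Real.log g ≤ 4 * z := by
    have h4 : Real.log g ≤ Real.log (9 * y) := Real.log_le_log hgpos hg9
    have h5 : Real.log (9 * y) = Real.log 9 + z := by
      rw [hz]
      exact Real.log_mul (by norm_num) hypos.ne'
    have h6 : Real.log 9 ≤ 3 := by
      have h7 : (9 : ℝ) ≤ Real.exp 3 := by
        have h8 : Real.exp 3 = Real.exp 1 ^ 3 := by
          rw [← Real.exp_nat_mul]
          norm_num
        rw [h8]
        have h9 := Real.exp_one_gt_d9
        calc (9 : ℝ) ≤ (2.7182818283 : ℝ) ^ 3 := by norm_num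
          _ ≤ Real.exp 1 ^ 3 := pow_le_pow_left₀ (by norm_num) h9.le 3
      have := Real.log_le_log (by norm_num) h7
      rwa [Real.log_exp] at this
    linarith
  have hgz : (g : ℝ) ≤ g * z := le_mul_of_one_le_right hgpos.le hz1
  have h19 : (19 : ℝ) ≤ g := by exact_mod_cast hg19
  have hgz2 : (g : ℝ) * Real.log g ≤ g * (4 * z) := mul_le_mul_of_nonneg_left hlogg hgpos.le
  have hfinal : (S.card : ℝ) ≤ 4682 * ((g : ℝ) * z) := by
    nlinarith
  have hgyz : (g : ℝ) * z ≤ 9 * y * z := mul_le_mul_of_nonneg_right hg9 (by linarith)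
  have hyz : 0 ≤ y * z := by positivity
  nlinarith

end Vale.Agent.Results.P012.A_loglog
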