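import Vale.Agent.Lib.P012.Schedule

namespace Vale.Agent.Results.P012.A_main

open Vale.Agent.Lib.P012

/-- Every `a / b` with `0 < a < b` and `b ≥ 16` is a sum of at most
`1500000 * (log log b) ^ 2` distinct unit fractions with denominators at least `2`;
that is, `N(b) ≪ (log log b) ^ 2`. -/
theorem result :
    ∀ b : ℕ, 16 ≤ b → ∀ a : ℕ, 0 < a → a < b →
      ∃ S : Finset ℕ, (∀ n ∈ S, 2 ≤ n) ∧ ∑ n ∈ S, (1 / (n : ℚ)) = (a : ℚ) / b ∧
        (S.card : ℝ) ≤ 1500000 * (Real.log (Real.log b)) ^ 2 := by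
  intro b hb a ha hab
  have hb16 : (16 : ℝ) ≤ b := by exact_mod_cast hb
  have hbpos : (0 : ℝ) < b := by linarith
  have hlog2 : (1 / 2 : ℝ) ≤ Real.log 2 := by
    have := Real.log_two_gt_d9
    linarith
  have hlog16 : Real.log 16 = 4 * Real.log 2 := by
    rw [show (16 : ℝ) = 2 ^ 4 by norm_num, Real.log_pow]
    norm_num
  have hlogb : Real.exp 1 ≤ Real.log b := by
    have h1 : Real.log 16 ≤ Real.log b := Real.log_le_log (by norm_num) hb16
    have h2 := Real.exp_one_lt_d9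
    have h3 := Real.log_two_gt_d9
    linarith
  have hlogbpos : 0 < Real.log b := lt_of_lt_of_le (Real.exp_pos 1) hlogb
  set y := Real.log (Real.log b) with hy
  have hy1 : 1 ≤ y := by
    rw [hy]
    exact (Real.le_log_iff_exp_le hlogbpos).2 hlogb
  set k := ⌈2 * y⌉₊ with hk
  have hk1 : 2 * y ≤ k := Nat.le_ceil _
  have hk2 : (k : ℝ) < 2 * y + 1 := Nat.ceil_lt_add_one (by linarith)
  set i := 12 + k with hi
  have hi12 : 12 ≤ i := by omega
  have hexp : Real.log b ≤ (2 : ℝ) ^ k := by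
    have h1 : Real.exp y = Real.log b := Real.exp_log hlogbpos
    have h2 : (2 : ℝ) ^ k = Real.exp (k * Real.log 2) := by
      rw [Real.exp_nat_mul, Real.exp_log (by norm_num)]
    rw [← h1, h2]
    apply Real.exp_le_exp.2
    nlinarith
  have h3b : ((3 * b : ℕ) : ℝ) ≤ ((2 ^ (2 ^ i) : ℕ) : ℝ) := by
    have h1 : Real.log ((3 * b : ℕ) : ℝ) ≤ ((2 ^ i : ℕ) : ℝ) * Real.log 2 := by
      have h2 : Real.log ((3 * b : ℕ) : ℝ) = Real.log 3 + Real.log b := by
        push_cast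
        exact Real.log_mul (by norm_num) hbpos.ne'
      have h3 : Real.log 3 ≤ Real.log b := Real.log_le_log (by norm_num) (by linarith)
      have h4 : ((2 ^ i : ℕ) : ℝ) = 4096 * (2 : ℝ) ^ k := by
        rw [hi]
        push_cast
        rw [pow_add]
        norm_num
      rw [h2, h4]
      have h5 : 4096 * Real.log b ≤ 4096 * (2 : ℝ) ^ k := by linarith
      have h6 : (1 / 2) * (4096 * Real.log b) ≤ Real.log 2 * (4096 * (2 : ℝ) ^ k) := by
        apply mul_le_mul hlog2 h5 (by positivity) (by linarith)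
      nlinarith
    have h7 : ((2 ^ (2 ^ i) : ℕ) : ℝ) = Real.exp (((2 ^ i : ℕ) : ℝ) * Real.log 2) := by
      rw [Real.exp_nat_mul, Real.exp_log (by norm_num)]
      push_cast
      rfl
    rw [h7]
    have h8 : (0 : ℝ) < ((3 * b : ℕ) : ℝ) := by
      push_cast
      linarith
    calc ((3 * b : ℕ) : ℝ) = Real.exp (Real.log ((3 * b : ℕ) : ℝ)) := (Real.exp_log h8).symm
      _ ≤ _ := Real.exp_le_exp.2 h1
  have h3b' : 3 * b ≤ 2 ^ (2 ^ i) := by exact_mod_cast h3b
  obtain ⟨S, h1, h2, h3⟩ := egyptian_of_stage hi12 h3b' ha hab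
  refine ⟨S, h1, h2, ?_⟩
  have hi15 : (i : ℝ) ≤ 15 * y := by
    rw [hi]
    push_cast
    linarith
  have h4 : (S.card : ℝ) ≤ 2 * (69649 + 2880 * (i : ℝ) ^ 2) := by exact_mod_cast h3
  have h5 : (i : ℝ) ^ 2 ≤ (15 * y) ^ 2 := pow_le_pow_left₀ (by positivity) hi15 2
  have h6 : 1 ≤ y ^ 2 := one_le_pow₀ hy1
  nlinarith

end Vale.Agent.Results.P012.A_main
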